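import Vale.Agent.P046.Full.Growth.Pot

/-!
P046, the exact constant, growth module: removal and truncated removal coupled through the stages.
-/

namespace Vale.Agent.P046.Full.Growth

open Finset

variable {V : Type} [Fintype V] [DecidableEq V] {T : Finset (Finset V)}

/-- The depth scale at absolute time `A`. -/
noncomputable def qq (a₀ k₀ A : ℝ) : ℝ := k₀ * a₀ / A

/-- The potential at absolute time `A` with end `Ae`, the truncated side carrying the surcharge `β`. -/
noncomputable def pot (T : Finset (Finset V)) (a₀ k₀ Ae β A : ℝ) (G H : Finset V) : ℝ :=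
  Real.exp (qq a₀ k₀ A - qq a₀ k₀ Ae) * ((dis G H).card : ℝ) +
    Real.exp (-qq a₀ k₀ Ae) * (qq a₀ k₀ A - qq a₀ k₀ Ae + Real.log (Ae / A)) * mom T G A +
    (Real.exp (-qq a₀ k₀ Ae) * (qq a₀ k₀ A - qq a₀ k₀ Ae + Real.log (Ae / A)) + β) * mom T H A

/-- Both sides under the same rings. -/
def pstep (T : Finset (Finset V)) (F : T) (x : Finset V × Finset V) : Finset V × Finset V :=
  (hstep T F x.1, hstep T F x.2)

lemma qq_nonneg {a₀ k₀ A : ℝ} (ha : 0 < a₀) (hk : 0 ≤ k₀) (hA : 0 < A) : 0 ≤ qq a₀ k₀ A :=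
  div_nonneg (mul_nonneg hk ha.le) hA.le

lemma qq_anti {a₀ k₀ A B : ℝ} (ha : 0 < a₀) (hk : 0 ≤ k₀) (hA : 0 < A) (hAB : A ≤ B) :
    qq a₀ k₀ B ≤ qq a₀ k₀ A :=
  div_le_div_of_nonneg_left (mul_nonneg hk ha.le) hA hAB

lemma mu_nonneg {a₀ k₀ A Ae : ℝ} (ha : 0 < a₀) (hk : 0 ≤ k₀) (hA : 0 < A) (hAe : A ≤ Ae) :
    0 ≤ Real.exp (-qq a₀ k₀ Ae) * (qq a₀ k₀ A - qq a₀ k₀ Ae + Real.log (Ae / A)) :=
  mul_nonneg (Real.exp_pos _).le (add_nonneg (sub_nonneg.2 (qq_anti ha hk hA hAe))
    (Real.log_nonneg (by rw [le_div_iff₀ hA]; linarith)))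

/-- Over a stretch of time the potential does not grow in mean. -/
lemma pot_dynkin (hT : Linear3 T) {a₀ k₀ Ae β A Δ : ℝ} (ha : 0 < a₀) (hk : 0 ≤ k₀) (hA : 0 < A)
    (hΔ : 0 ≤ Δ) (hend : A + Δ ≤ Ae) (hβ : 0 ≤ β) (x : Finset V × Finset V) :
    semi (pstep T) Δ (fun x => pot T a₀ k₀ Ae β (A + Δ) x.1 x.2) x ≤
      pot T a₀ k₀ Ae β A x.1 x.2 := by
  set qe := qq a₀ k₀ Ae with hqe
  set F' : ℝ → Finset V × Finset V → ℝ := fun u x =>
    Real.exp (qq a₀ k₀ (A + u) - qe) * (-(qq a₀ k₀ (A + u) / (A + u))) * ((dis x.1 x.2).card : ℝ) +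
      (Real.exp (-qe) * (-((qq a₀ k₀ (A + u) + 1) / (A + u))) * mom T x.1 (A + u) +
        Real.exp (-qe) * (qq a₀ k₀ (A + u) - qe + Real.log (Ae / (A + u))) *
          (∑ a ∈ x.1, (pdeg T x.1 a : ℝ) * Real.exp ((A + u) * (pdeg T x.1 a : ℝ)))) +
      (Real.exp (-qe) * (-((qq a₀ k₀ (A + u) + 1) / (A + u))) * mom T x.2 (A + u) +
        (Real.exp (-qe) * (qq a₀ k₀ (A + u) - qe + Real.log (Ae / (A + u))) + β) *
          (∑ a ∈ x.2, (pdeg T x.2 a : ℝ) * Real.exp ((A + u) * (pdeg T x.2 a : ℝ)))) with hF'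
  have h := semi_le_of_drift (pstep T) hΔ (fun u x => pot T a₀ k₀ Ae β (A + u) x.1 x.2) F' ?_ ?_ x
  · simpa using h
  · intro u hu x
    have hAu : 0 < A + u := by linarith [hu.1]
    have hAe : 0 < Ae := by linarith [hu.1, hu.2]
    refine HasDerivAt.hasDerivWithinAt ?_
    have hq : HasDerivAt (fun u => qq a₀ k₀ (A + u)) (-(qq a₀ k₀ (A + u) / (A + u))) u := by
      refine ((hasDerivAt_const u (k₀ * a₀)).fun_div ((hasDerivAt_id u).const_add A) hAu.ne').congr_deriv ?_
      simp only [qq, id]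
      field_simp
      ring
    have hl : HasDerivAt (fun u => Real.log (Ae / (A + u))) (-(1 / (A + u))) u := by
      refine (((hasDerivAt_const u Ae).fun_div ((hasDerivAt_id u).const_add A) hAu.ne').log
        (div_pos hAe hAu).ne').congr_deriv ?_
      simp only [id]
      field_simp
      ring
    have hμ : HasDerivAt (fun u => Real.exp (-qe) * (qq a₀ k₀ (A + u) - qe + Real.log (Ae / (A + u))))
        (Real.exp (-qe) * (-((qq a₀ k₀ (A + u) + 1) / (A + u)))) u := by
      refine (((hq.sub_const qe).fun_add hl).const_mul _).congr_deriv ?_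
      ring
    have h1 := ((hq.sub_const qe).exp.mul_const ((dis x.1 x.2).card : ℝ))
    have h2 := hμ.fun_mul (mom_hasDerivAt T x.1 A u)
    have h3 := (hμ.add_const β).fun_mul (mom_hasDerivAt T x.2 A u)
    exact ((h1.fun_add h2).fun_add h3).congr_deriv (by simp only [hF'])
  · intro u hu x
    have hAu : 0 < A + u := by linarith [hu.1]
    have hμ0 : 0 ≤ Real.exp (-qe) * (qq a₀ k₀ (A + u) - qe + Real.log (Ae / (A + u))) :=
      mu_nonneg ha hk hAu (by linarith [hu.2])
    have hD := mul_le_mul_of_nonneg_left (dis_rate hT x.1 x.2 hAu (qq_nonneg ha hk hAu))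
      (Real.exp_pos (qq a₀ k₀ (A + u) - qe)).le
    have hG := mul_le_mul_of_nonneg_left (mom_drift T x.1 hAu.le) hμ0
    have hH := mul_le_mul_of_nonneg_left (mom_drift T x.2 hAu.le) (add_nonneg hμ0 hβ)
    have hgen : gen (pstep T) (fun x => pot T a₀ k₀ Ae β (A + u) x.1 x.2) x =
        Real.exp (qq a₀ k₀ (A + u) - qe) * (∑ F : T,
            (((dis (hstep T F x.1) (hstep T F x.2)).card : ℝ) - ((dis x.1 x.2).card : ℝ))) +
          Real.exp (-qe) * (qq a₀ k₀ (A + u) - qe + Real.log (Ae / (A + u))) *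
            (∑ F : T, (mom T (hstep T F x.1) (A + u) - mom T x.1 (A + u))) +
          (Real.exp (-qe) * (qq a₀ k₀ (A + u) - qe + Real.log (Ae / (A + u))) + β) *
            (∑ F : T, (mom T (hstep T F x.2) (A + u) - mom T x.2 (A + u))) := by
      rw [gen_apply, Finset.mul_sum, Finset.mul_sum, Finset.mul_sum, ← Finset.sum_add_distrib,
        ← Finset.sum_add_distrib]
      refine Finset.sum_congr rfl fun F _ => ?_
      simp only [pot, pstep, ← hqe]; ring
    have he : Real.exp (qq a₀ k₀ (A + u) - qe) * Real.exp (-qq a₀ k₀ (A + u)) = Real.exp (-qe) := by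
      rw [← Real.exp_add]; ring_nf
    have he2 : ∀ z : ℝ, Real.exp (qq a₀ k₀ (A + u) - qe) *
        ((qq a₀ k₀ (A + u) + 1) * Real.exp (-qq a₀ k₀ (A + u)) / (A + u) * z) =
          Real.exp (-qe) * ((qq a₀ k₀ (A + u) + 1) / (A + u)) * z := fun z => by
      rw [← he]; ring
    rw [hgen]
    simp only [mul_add, mul_zero, he2] at hD hG hH
    simp only [hF', mul_neg, neg_mul, mul_assoc] at *
    linarith

/-- The stages are short, deep enough, and lead from `A` to `Ae`. -/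
def Chainlike (a₀ k₀ Ae : ℝ) : ℝ → List (ℝ × ℕ) → Prop
  | A, [] => A = Ae
  | A, (Δ, k) :: rest => 0 ≤ Δ ∧ Δ ≤ A / 50 ∧ 4 * qq a₀ k₀ A ≤ k ∧ Chainlike a₀ k₀ Ae (A + Δ) rest

lemma chain_le {a₀ k₀ Ae : ℝ} : ∀ {A : ℝ} {s : List (ℝ × ℕ)}, Chainlike a₀ k₀ Ae A s → A ≤ Ae
  | _, [], h => le_of_eq h
  | _, (_, _) :: _, ⟨h, _, _, hr⟩ => by linarith [chain_le hr]

/-- The coupling through all the stages. -/
lemma stages (hT : Linear3 T) {a₀ k₀ Ae : ℝ} (ha : 0 < a₀) (hk : 0 ≤ k₀) {f : Finset V → ℝ}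
    (hf : ∀ G H, |f G - f H| ≤ ((dis G H).card : ℝ)) :
    ∀ (s : List (ℝ × ℕ)) (A : ℝ), a₀ ≤ A → Chainlike a₀ k₀ Ae A s → ∀ G H : Finset V,
      |semi (hstep T) (Ae - A) f G - truncExp T s f H| ≤
        pot T a₀ k₀ Ae ((s.length : ℝ) * ((k₀ + 2) * Real.exp (-qq a₀ k₀ Ae))) A G H
  | [], A, hA0, hc, G, H => by
    obtain rfl : A = Ae := hc
    have hA : 0 < A := ha.trans_le hA0
    simpa [truncExp, pot, semi_zero, hA.ne'] using hf G H
  | (Δ, K) :: rest, A, hA0, hc, G, H => by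
    obtain ⟨hΔ0, hΔ, hK, hc⟩ := hc
    have hA : 0 < A := ha.trans_le hA0
    have hA' : 0 < A + Δ := by linarith
    have hle := chain_le hc
    have hqA := qq_nonneg ha hk hA
    have hqk : qq a₀ k₀ A ≤ k₀ := by
      rw [qq, div_le_iff₀ hA]; exact mul_le_mul_of_nonneg_left hA0 hk
    set qe := qq a₀ k₀ Ae with hqe
    set b := (k₀ + 2) * Real.exp (-qe) with hb
    set β := (rest.length : ℝ) * b with hβdef
    have hb0 : 0 ≤ b := by positivity
    have hβ : 0 ≤ β := by positivity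
    set f₁ : Finset V → ℝ := semi (hstep T) (Ae - (A + Δ)) f with hf₁
    set g₁ : TState V K → ℝ :=
      fun x => truncExp T rest f (x.2.1.filter (fun a => (x.2.2 a : ℕ) < K)) with hg₁
    let cstep : T → Finset V × TState V K → Finset V × TState V K :=
      fun F y => (hstep T F y.1, tstep T K F y.2)
    let S : Set (Finset V × TState V K) := {y | y.2.2.1 ⊆ y.2.1}
    have hS : ∀ F, ∀ y ∈ S, cstep F y ∈ S := fun F y hy => (tstep_inv F y.2 hy).1
    set y₀ : Finset V × TState V K := (G, (H, H, fun _ => 0)) with hy₀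
    have hy : y₀ ∈ S := Finset.Subset.refl H
    -- the two marginals
    have e1 : semi (hstep T) (Ae - A) f G = semi cstep Δ (fun y => f₁ y.1) y₀ := by
      rw [semi_proj cstep (hstep T) (fun y => y.1) (fun _ _ => rfl), hf₁, ← semi_add_apply,
        show Δ + (Ae - (A + Δ)) = Ae - A by ring]
    have e2 : truncExp T ((Δ, K) :: rest) f H = semi cstep Δ (fun y => g₁ y.2) y₀ :=
      (semi_proj cstep (tstep T K) (fun y => y.2) (fun _ _ => rfl) Δ g₁ y₀).symm
    -- the disagreement at the end of the stage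
    set bad : TState V K → ℝ := fun x => ((x.1.filter (fun a => ¬(x.2.2 a : ℕ) < K)).card : ℝ) with hbad
    set w := Real.exp (qq a₀ k₀ (A + Δ) - qe) with hw
    have hpt : ∀ y ∈ S, |f₁ y.1 - g₁ y.2| ≤ pot T a₀ k₀ Ae β (A + Δ) y.1 y.2.2.1 + w * bad y.2 := by
      intro y hyS
      refine (stages hT ha hk hf rest (A + Δ) (by linarith) hc y.1 _).trans ?_
      set H' := y.2.2.1.filter (fun a => (y.2.2.2 a : ℕ) < K)
      have h1 : ((dis y.1 H').card : ℝ) ≤ ((dis y.1 y.2.2.1).card : ℝ) + bad y.2 := by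
        have h0 := dis_filter y.1 y.2.2.1 (fun a => (y.2.2.2 a : ℕ) < K)
        have h0' : (y.2.2.1.filter (fun a => ¬(y.2.2.2 a : ℕ) < K)).card ≤
            (y.2.1.filter (fun a => ¬(y.2.2.2 a : ℕ) < K)).card :=
          Finset.card_le_card (Finset.filter_subset_filter _ hyS)
        simp only [hbad]
        exact_mod_cast h0.trans (Nat.add_le_add_left h0' _)
      have h2 := mom_mono (T := T) (Finset.filter_subset _ _ : H' ⊆ y.2.2.1) hA'.le
      have h3 := mul_le_mul_of_nonneg_left h1 (Real.exp_pos (qq a₀ k₀ (A + Δ) - qe)).le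
      have h4 := mul_le_mul_of_nonneg_left h2
        (add_nonneg (mu_nonneg (a₀ := a₀) (k₀ := k₀) ha hk hA' hle) hβ)
      simp only [pot, hw, ← hqe, mul_add] at h3 h4 ⊢
      linarith
    -- the pairs follow removal
    have hφ : semi cstep Δ (fun y => pot T a₀ k₀ Ae β (A + Δ) y.1 y.2.2.1) y₀ ≤
        pot T a₀ k₀ Ae β A G H := by
      let cstep' : T → Finset V × TState V K → Finset V × TState V K :=
        fun F y => (hstep T F y.1, y.2.1, hstep T F y.2.2.1, (tstep T K F y.2).2.2)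
      have he : ∀ F, ∀ y ∈ S, cstep F y = cstep' F y := fun F y hyS =>
        Prod.ext rfl (Prod.ext (tstep_fst F y.2) (Prod.ext (tstep_inv F y.2 hyS).2 rfl))
      rw [semi_congr_gen cstep cstep' S hS (fun φ y hyS => by
          rw [gen_apply, gen_apply]
          exact Finset.sum_congr rfl fun F _ => by rw [he F y hyS]) Δ _ hy,
        semi_proj cstep' (pstep T) (fun y => (y.1, y.2.2.1)) (fun _ _ => rfl) Δ
          (fun x => pot T a₀ k₀ Ae β (A + Δ) x.1 x.2) y₀]
      exact pot_dynkin hT ha hk hA hΔ0 hle hβ _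
    -- the deep histories
    have hBad : w * semi cstep Δ (fun y => bad y.2) y₀ ≤ b * mom T H A := by
      rw [semi_proj cstep (tstep T K) (fun y => y.2) (fun _ _ => rfl) Δ bad y₀]
      refine (mul_le_mul_of_nonneg_left (stage_bad hT hA hΔ0 hΔ hqA hK H) (Real.exp_pos _).le).trans ?_
      rw [← mul_assoc, hb]
      refine mul_le_mul_of_nonneg_right ?_ (mom_nonneg _ _ _)
      calc Real.exp (qq a₀ k₀ (A + Δ) - qe) * ((qq a₀ k₀ A + 2) * Real.exp (-qq a₀ k₀ A))
          = (qq a₀ k₀ A + 2) * (Real.exp (qq a₀ k₀ (A + Δ) - qe) * Real.exp (-qq a₀ k₀ A)) := by ring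
        _ ≤ (k₀ + 2) * Real.exp (-qe) := by
          refine mul_le_mul (by linarith) ?_ (by positivity) (by linarith)
          rw [← Real.exp_add]
          exact Real.exp_le_exp.2 (by linarith [qq_anti ha hk hA (show A ≤ A + Δ by linarith)])
    -- the assembly
    set Φ : Finset V × TState V K → ℝ := fun y => pot T a₀ k₀ Ae β (A + Δ) y.1 y.2.2.1 with hΦ
    have hsum : semi cstep Δ (fun y => Φ y + w * bad y.2) y₀ =
        semi cstep Δ Φ y₀ + w * semi cstep Δ (fun y => bad y.2) y₀ := by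
      have : (fun y => Φ y + w * bad y.2) = Φ + w • fun y => bad y.2 := rfl
      rw [this, map_add, map_smul]; rfl
    have hdiff : semi (hstep T) (Ae - A) f G - truncExp T ((Δ, K) :: rest) f H =
        semi cstep Δ (fun y => f₁ y.1 - g₁ y.2) y₀ := by
      have : (fun y : Finset V × TState V K => f₁ y.1 - g₁ y.2) =
          (fun y => f₁ y.1) - fun y => g₁ y.2 := rfl
      rw [this, map_sub, e1, e2]; rfl
    have hup := semi_mono_on cstep S hS hΔ0 (f := fun y => f₁ y.1 - g₁ y.2)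
      (g := fun y => Φ y + w * bad y.2) (fun y hy => (abs_le.1 (hpt y hy)).2) hy
    have hlo := semi_mono_on cstep S hS hΔ0 (f := fun y => -(Φ y + w * bad y.2))
      (g := fun y => f₁ y.1 - g₁ y.2) (fun y hy => (abs_le.1 (hpt y hy)).1) hy
    rw [show (fun y => -(Φ y + w * bad y.2)) = -(fun y => Φ y + w * bad y.2) from rfl, map_neg,
      Pi.neg_apply] at hlo
    rw [hsum] at hup hlo
    have hlen : (((Δ, K) :: rest).length : ℝ) * b = β + b := by
      rw [List.length_cons, hβdef]; push_cast; ring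
    rw [hlen, hdiff, abs_le]
    simp only [pot, ← hqe] at hφ ⊢
    constructor <;> linarith [mul_comm b (mom T H A)]

lemma chain_range {a₀ k₀ Ae : ℝ} : ∀ (n : ℕ) (g : ℕ → ℝ × ℕ) (B : ℕ → ℝ), B n = Ae →
    (∀ i < n, B i + (g i).1 = B (i + 1) ∧ 0 ≤ (g i).1 ∧ (g i).1 ≤ B i / 50 ∧
      4 * qq a₀ k₀ (B i) ≤ (g i).2) → Chainlike a₀ k₀ Ae (B 0) ((List.range n).map g)
  | 0, g, B, hn, _ => by simpa [Chainlike] using hn
  | n + 1, g, B, hn, h => by
    obtain ⟨h1, h2, h3, h4⟩ := h 0 (Nat.succ_pos n)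
    rw [List.range_succ_eq_map, List.map_cons, List.map_map, ← Prod.mk.eta (p := g 0)]
    refine ⟨h2, h3, h4, ?_⟩
    rw [h1]
    exact chain_range n (fun i => g (i + 1)) (fun i => B (i + 1)) hn fun i hi => h (i + 1) (by omega)

/-- The geometric schedule is a chain, and short. -/
lemma sched_ok {a₀ t k₀ : ℝ} (ha : 0 < a₀) (ht : 0 < t) (hk : 0 ≤ k₀) :
    Chainlike a₀ k₀ (a₀ + t) a₀ (sched a₀ t k₀) ∧
      ((sched a₀ t k₀).length : ℝ) ≤ 51 * Real.log (1 + t / a₀) + 1 := by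
  have hlog : (1 : ℝ) / 51 ≤ Real.log (51 / 50) := by
    have := Real.one_sub_inv_le_log_of_pos (show (0 : ℝ) < 51 / 50 by norm_num)
    norm_num at this ⊢
    linarith
  set L := Real.log (1 + t / a₀) with hL
  have hL0 : 0 ≤ L := Real.log_nonneg (by have := div_pos ht ha; linarith)
  have hpos : (0 : ℝ) < 1 + t / a₀ := by have := div_pos ht ha; linarith
  set n := stageCount a₀ t with hn
  have hlow : ∀ i < n, a₀ * (51 / 50 : ℝ) ^ i ≤ a₀ + t := by
    intro i hi
    rw [hn, stageCount, Nat.lt_ceil, lt_div_iff₀ (by linarith), ← Real.log_pow] at hi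
    have h := (Real.log_lt_log_iff (by positivity) hpos).1 hi
    calc a₀ * (51 / 50 : ℝ) ^ i ≤ a₀ * (1 + t / a₀) := mul_le_mul_of_nonneg_left h.le ha.le
      _ = a₀ + t := by field_simp
  have hend : a₀ + t ≤ a₀ * (51 / 50 : ℝ) ^ n := by
    have h : L / Real.log (51 / 50) ≤ n := Nat.le_ceil _
    rw [div_le_iff₀ (by linarith), ← Real.log_pow] at h
    have h' := (Real.log_le_log_iff hpos (by positivity)).1 h
    calc a₀ + t = a₀ * (1 + t / a₀) := by field_simp
      _ ≤ _ := mul_le_mul_of_nonneg_left h' ha.le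
  constructor
  · have h := chain_range (a₀ := a₀) (k₀ := k₀) (Ae := a₀ + t) n
      (fun i => (min (a₀ * (51 / 50) ^ (i + 1)) (a₀ + t) - a₀ * (51 / 50) ^ i,
        ⌈4 * k₀ * (50 / 51 : ℝ) ^ i⌉₊))
      (fun i => min (a₀ * (51 / 50 : ℝ) ^ i) (a₀ + t)) (min_eq_right hend) fun i hi => by
        rw [min_eq_left (hlow i hi)]
        refine ⟨by ring, ?_, ?_, ?_⟩
        · rw [sub_nonneg, le_min_iff]
          exact ⟨mul_le_mul_of_nonneg_left (pow_le_pow_right₀ (by norm_num) (Nat.le_succ i)) ha.le,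
            hlow i hi⟩
        · refine (sub_le_sub_right (min_le_left _ _) _).trans (le_of_eq ?_)
          rw [pow_succ]; ring
        · refine le_trans (le_of_eq ?_) (Nat.le_ceil _)
          rw [qq, show (50 / 51 : ℝ) = (51 / 50)⁻¹ by norm_num, inv_pow]
          field_simp
    simpa [sched, ← hn, min_eq_left (le_of_lt (lt_add_of_pos_right a₀ ht))] using h
  · rw [sched, List.length_map, List.length_range, stageCount]
    have h : L / Real.log (51 / 50) ≤ 51 * L := by
      rw [div_le_iff₀ (by linarith)]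
      nlinarith
    linarith [(Nat.ceil_lt_add_one (show 0 ≤ L / Real.log (51 / 50) from div_nonneg hL0 (by linarith))).le]

/-- Removal stays close to truncated removal. -/
theorem growth : GrowthStmt := by
  refine ⟨200, fun V _ _ T U hT hU a₀ t k₀ ha ht hk c => ?_⟩
  obtain ⟨hc, hlen⟩ := sched_ok (k₀ := k₀) ha ht (by linarith)
  set L := Real.log (1 + t / a₀) with hL
  have hL0 : 0 ≤ L := Real.log_nonneg (by have := div_pos ht ha; linarith)
  have hmU : mom T U a₀ = hmom T U a₀ := by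
    refine Finset.sum_congr rfl fun a _ => ?_
    rw [show pdeg T U a = hdeg T a from congrArg Finset.card
      (Finset.filter_congr fun F hF => ⟨fun h => h.1, fun h => ⟨h, hU F hF⟩⟩)]
  set e := Real.exp (-(k₀ * a₀ / (a₀ + t))) with he
  have hq : qq a₀ k₀ a₀ = k₀ := by rw [qq]; field_simp
  have hbound : pot T a₀ k₀ (a₀ + t)
      (((sched a₀ t k₀).length : ℝ) * ((k₀ + 2) * Real.exp (-qq a₀ k₀ (a₀ + t)))) a₀ U U ≤
      200 * (k₀ + L + 1) ^ 2 * e * hmom T U a₀ := by
    have hM := mom_nonneg T U a₀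
    have hlog : Real.log ((a₀ + t) / a₀) = L := by rw [hL]; congr 1; field_simp
    have hqe0 := qq_nonneg (a₀ := a₀) (k₀ := k₀) ha (by linarith) (show 0 < a₀ + t by linarith)
    have hec : Real.exp (-qq a₀ k₀ (a₀ + t)) = e := rfl
    rw [← hmU]
    simp only [pot, dis_self, Finset.card_empty, Nat.cast_zero, mul_zero, zero_add, hq, hlog, hec]
    have hcoef : 2 * (k₀ - qq a₀ k₀ (a₀ + t) + L) + ((sched a₀ t k₀).length : ℝ) * (k₀ + 2) ≤
        200 * (k₀ + L + 1) ^ 2 := by
      have h1 : ((sched a₀ t k₀).length : ℝ) * (k₀ + 2) ≤ (51 * L + 1) * (k₀ + 2) :=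
        mul_le_mul_of_nonneg_right hlen (by linarith)
      nlinarith [mul_nonneg hL0 (show 0 ≤ k₀ by linarith)]
    have := mul_le_mul_of_nonneg_right hcoef (mul_nonneg (Real.exp_pos (-(k₀ * a₀ / (a₀ + t)))).le hM)
    rw [← he] at this
    linarith
  constructor
  · have h := stages hT ha (show 0 ≤ k₀ by linarith) (f := fun H => |(H.card : ℝ) - c|) (fun G H =>
      ((abs_abs_sub_abs_le_abs_sub _ _).trans (le_of_eq (by ring_nf))).trans (abs_card_sub G H))
      _ a₀ le_rfl hc U U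
    rw [add_sub_cancel_left] at h
    exact h.trans hbound
  · have h := stages hT ha (show 0 ≤ k₀ by linarith) (f := fun H => (H.card : ℝ)) abs_card_sub
      _ a₀ le_rfl hc U U
    rw [add_sub_cancel_left] at h
    exact h.trans hbound

end Vale.Agent.P046.Full.Growth
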