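import Vale.Agent.P046.Full.ThreeBase

/-!
P046, the exact constant, growth module: the exponential moment of the degrees of a present point does
not grow, removal and truncated removal differ at a bounded rate per point of disagreement, and few
histories get deep within one stage.
-/

namespace Vale.Agent.P046.Full.Growth

open Finset

variable {V : Type} [Fintype V] [DecidableEq V] {T : Finset (Finset V)}

section chain

variable {ι κ : Type*} [Fintype ι] [Fintype κ]

/-- An inequality on an invariant set passes to the semigroup started inside it. -/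
lemma semi_mono_on (step : κ → ι → ι) (S : Set ι) (hS : ∀ k, ∀ x ∈ S, step k x ∈ S) {t : ℝ}
    (ht : 0 ≤ t) {f g : ι → ℝ} (h : ∀ x ∈ S, f x ≤ g x) {x : ι} (hx : x ∈ S) :
    semi step t f x ≤ semi step t g x := by
  rw [semi_congr step S hS t (g := fun y => min (f y) (g y)) (fun y hy => (min_eq_left (h y hy)).symm) hx]
  exact semi_mono step ht (fun y => min_le_right _ _) x

/-- A map commuting with the steps transports the semigroup. -/
lemma semi_proj {ι' : Type*} [Fintype ι'] (step : κ → ι → ι) (step' : κ → ι' → ι') (p : ι → ι')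
    (h : ∀ k x, p (step k x) = step' k (p x)) (t : ℝ) (f : ι' → ℝ) (x : ι) :
    semi step t (fun y => f (p y)) x = semi step' t f (p x) := by
  let C : (ι' → ℝ) →L[ℝ] (ι → ℝ) :=
    LinearMap.toContinuousLinearMap
      { toFun := fun f x => f (p x)
        map_add' := fun _ _ => rfl
        map_smul' := fun _ _ => rfl }
  have h1 := semi_intertwine step step' C (fun g => by
    funext y
    change ∑ k, (g (p (step k y)) - g (p y)) = ∑ k, (g (step' k (p y)) - g (p y))
    simp only [h]) t f
  exact congrFun h1 x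

end chain

/-- The number of hyperedges at `a` with all points present. -/
def pdeg (T : Finset (Finset V)) (H : Finset V) (a : V) : ℕ :=
  (T.filter (fun F => a ∈ F ∧ F ⊆ H)).card

/-- The exponential moment of the present degrees. -/
noncomputable def mom (T : Finset (Finset V)) (H : Finset V) (A : ℝ) : ℝ :=
  ∑ a ∈ H, Real.exp (A * (pdeg T H a : ℝ))

lemma pdeg_mono {H H' : Finset V} (h : H' ⊆ H) (a : V) : pdeg T H' a ≤ pdeg T H a :=
  Finset.card_le_card fun F hF => by
    simp only [Finset.mem_filter] at hF ⊢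
    exact ⟨hF.1, hF.2.1, hF.2.2.trans h⟩

lemma mom_mono {H H' : Finset V} (h : H' ⊆ H) {A : ℝ} (hA : 0 ≤ A) : mom T H' A ≤ mom T H A :=
  (Finset.sum_le_sum fun a _ => Real.exp_le_exp.2
    (mul_le_mul_of_nonneg_left (Nat.cast_le.2 (pdeg_mono h a)) hA)).trans
    (Finset.sum_le_sum_of_subset_of_nonneg h fun _ _ _ => (Real.exp_pos _).le)

lemma mom_nonneg (T : Finset (Finset V)) (H : Finset V) (A : ℝ) : 0 ≤ mom T H A :=
  Finset.sum_nonneg fun _ _ => (Real.exp_pos _).le

lemma card_le_mom (T : Finset (Finset V)) (H : Finset V) {A : ℝ} (hA : 0 ≤ A) :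
    (H.card : ℝ) ≤ mom T H A := by
  refine le_trans (le_of_eq (by simp)) (Finset.sum_le_sum (f := fun _ => (1 : ℝ)) fun a _ =>
    Real.one_le_exp (by positivity))

/-- Exchanging the sum over present hyperedges with the sum over their points. -/
lemma sum_points (T : Finset (Finset V)) (H : Finset V) (g : V → ℝ) :
    ∑ F ∈ T.filter (fun F => F ⊆ H), ∑ a ∈ F, g a = ∑ a ∈ H, (pdeg T H a : ℝ) * g a := by
  rw [Finset.sum_comm' (t' := H) (s' := fun a => T.filter (fun F => a ∈ F ∧ F ⊆ H))]
  · refine Finset.sum_congr rfl fun a _ => ?_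
    simp [pdeg]
  · intro F a
    simp only [Finset.mem_filter]
    constructor
    · exact fun ⟨⟨h1, h2⟩, h3⟩ => ⟨⟨h1, h3, h2⟩, h2 h3⟩
    · exact fun ⟨⟨h1, h3, h2⟩, _⟩ => ⟨⟨h1, h2⟩, h3⟩

lemma sum_ite_coe (T : Finset (Finset V)) (H : Finset V) (g : Finset V → ℝ) :
    ∑ F : T, (if (F : Finset V) ⊆ H then g F else 0) = ∑ F ∈ T.filter (fun F => F ⊆ H), g F := by
  rw [Finset.sum_coe_sort T (fun F => if F ⊆ H then g F else 0), Finset.sum_filter]

/-- Removal pushes the exponential moment down at the speed at which its rate pushes it up. -/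
lemma mom_drift (T : Finset (Finset V)) (H : Finset V) {A : ℝ} (hA : 0 ≤ A) :
    (∑ a ∈ H, (pdeg T H a : ℝ) * Real.exp (A * (pdeg T H a : ℝ))) +
      ∑ F : T, (mom T (hstep T F H) A - mom T H A) ≤ 0 := by
  have hkey : ∀ F : T, mom T (hstep T F H) A - mom T H A ≤
      (if (F : Finset V) ⊆ H then -∑ a ∈ (F : Finset V), Real.exp (A * (pdeg T H a : ℝ)) else 0) := by
    intro F
    by_cases hF : (F : Finset V) ⊆ H
    · rw [if_pos hF, hstep, if_pos hF]
      have h1 : mom T (H \ (F : Finset V)) A ≤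
          ∑ a ∈ H \ (F : Finset V), Real.exp (A * (pdeg T H a : ℝ)) :=
        Finset.sum_le_sum fun a _ => Real.exp_le_exp.2
          (mul_le_mul_of_nonneg_left (Nat.cast_le.2 (pdeg_mono Finset.sdiff_subset a)) hA)
      have h2 := Finset.sum_sdiff (f := fun a => Real.exp (A * (pdeg T H a : ℝ))) hF
      unfold mom at *
      linarith
    · rw [if_neg hF, hstep, if_neg hF, sub_self]
  refine le_trans (add_le_add le_rfl (Finset.sum_le_sum fun F _ => hkey F)) (le_of_eq ?_)
  rw [sum_ite_coe T H (fun F => -∑ a ∈ F, Real.exp (A * (pdeg T H a : ℝ))), Finset.sum_neg_distrib,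
    sum_points, add_neg_cancel]

lemma mom_hasDerivAt (T : Finset (Finset V)) (H : Finset V) (c u : ℝ) :
    HasDerivAt (fun s => mom T H (c + s))
      (∑ a ∈ H, (pdeg T H a : ℝ) * Real.exp ((c + u) * (pdeg T H a : ℝ))) u := by
  refine HasDerivAt.fun_sum fun a _ => ?_
  refine (((hasDerivAt_id u).const_add c).mul_const (pdeg T H a : ℝ)).exp.congr_deriv ?_
  simp [mul_comm]

/-- The degrees above a threshold weigh little. -/
lemma high_deg (T : Finset (Finset V)) (H : Finset V) {A : ℝ} (hA : 0 < A) {y : ℝ} (hy : 0 ≤ y) :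
    ∑ a ∈ H.filter (fun a => y / A < (pdeg T H a : ℝ)), (pdeg T H a : ℝ) ≤
      (y + 1) * Real.exp (-y) / A * mom T H A := by
  rw [mom, Finset.mul_sum]
  refine (Finset.sum_le_sum fun a ha => ?_).trans
    (Finset.sum_le_sum_of_subset_of_nonneg (Finset.filter_subset _ _) fun a _ _ => by positivity)
  have h1 : y < A * (pdeg T H a : ℝ) := by
    rw [mul_comm A]
    exact (div_lt_iff₀ hA).1 (Finset.mem_filter.1 ha).2
  have h2 := Real.add_one_le_exp (A * (pdeg T H a : ℝ) - y)
  have h3 : A * (pdeg T H a : ℝ) ≤ (y + 1) * Real.exp (A * (pdeg T H a : ℝ) - y) := by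
    nlinarith [Real.exp_pos (A * (pdeg T H a : ℝ) - y)]
  rw [div_mul_eq_mul_div, le_div_iff₀ hA, mul_comm _ A, mul_assoc, ← Real.exp_add]
  refine h3.trans (le_of_eq ?_)
  ring_nf

/-! ### Disagreement -/

/-- The points present in exactly one of two sets. -/
def dis (G H : Finset V) : Finset V := (G \ H) ∪ (H \ G)

lemma dis_comm (G H : Finset V) : dis G H = dis H G := Finset.union_comm _ _

lemma dis_self (H : Finset V) : dis H H = ∅ := by simp [dis]

lemma abs_card_sub (G H : Finset V) : |(G.card : ℝ) - (H.card : ℝ)| ≤ ((dis G H).card : ℝ) := by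
  have h1 : G.card ≤ H.card + (dis G H).card :=
    (Finset.card_le_card (fun a ha => by
      by_cases hH : a ∈ H <;> simp [dis, hH, ha])).trans (Finset.card_union_le _ _)
  have h2 : H.card ≤ G.card + (dis G H).card :=
    (Finset.card_le_card (fun a ha => by
      by_cases hG : a ∈ G <;> simp [dis, hG, ha])).trans (Finset.card_union_le _ _)
  rw [abs_le]
  constructor <;> linarith [(Nat.cast_le (α := ℝ)).2 h1, (Nat.cast_le (α := ℝ)).2 h2,
    Nat.cast_add (R := ℝ) H.card (dis G H).card, Nat.cast_add (R := ℝ) G.card (dis G H).card]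

lemma dis_filter (G H : Finset V) (p : V → Prop) [DecidablePred p] :
    (dis G (H.filter p)).card ≤ (dis G H).card + (H.filter (fun a => ¬p a)).card := by
  refine (Finset.card_le_card fun a ha => ?_).trans (Finset.card_union_le _ _)
  simp only [dis, Finset.mem_union, Finset.mem_sdiff, Finset.mem_filter] at ha ⊢
  by_cases hG : a ∈ G <;> by_cases hH : a ∈ H <;> by_cases hp : p a <;> simp_all

lemma dis_one_side {F G H : Finset V} (hF : F.card = 3) (hG : F ⊆ G) (hH : ¬F ⊆ H) :
    (dis (G \ F) H).card ≤ (dis G H).card + 1 := by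
  obtain ⟨a, haF, haH⟩ := Finset.not_subset.1 hH
  have ha : a ∈ dis G H := by simp [dis, hG haF, haH]
  have hsub : dis (G \ F) H ⊆ (dis G H).erase a ∪ F.erase a := by
    intro b hb
    simp only [dis, Finset.mem_union, Finset.mem_sdiff, Finset.mem_erase] at hb ⊢
    by_cases hba : b = a
    · subst hba; simp_all
    · tauto
  have h1 := (Finset.card_le_card hsub).trans (Finset.card_union_le _ _)
  rw [Finset.card_erase_of_mem ha, Finset.card_erase_of_mem haF, hF] at h1
  have h2 := Finset.card_pos.2 ⟨a, ha⟩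
  omega

/-- The rate at which hyperedges fire on one side only. -/
lemma one_side_rate (T : Finset (Finset V)) (G H : Finset V) {A : ℝ} (hA : 0 < A) {y : ℝ} (hy : 0 ≤ y) :
    ((T.filter (fun F => F ⊆ G ∧ ¬F ⊆ H)).card : ℝ) ≤
      y / A * ((G \ H).card : ℝ) + (y + 1) * Real.exp (-y) / A * mom T G A := by
  have h1 : (T.filter (fun F => F ⊆ G ∧ ¬F ⊆ H)).card ≤ ∑ a ∈ G \ H, pdeg T G a := by
    refine (Finset.card_le_card fun F hF => ?_).trans Finset.card_biUnion_le
    simp only [Finset.mem_filter] at hF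
    obtain ⟨a, haF, haH⟩ := Finset.not_subset.1 hF.2.2
    simp only [Finset.mem_biUnion, Finset.mem_sdiff, Finset.mem_filter]
    exact ⟨a, ⟨hF.2.1 haF, haH⟩, hF.1, haF, hF.2.1⟩
  refine ((Nat.cast_le (α := ℝ)).2 h1).trans ?_
  rw [Nat.cast_sum, ← Finset.sum_filter_add_sum_filter_not (G \ H) (fun a => y / A < (pdeg T G a : ℝ)),
    add_comm]
  refine add_le_add ?_ ?_
  · refine ((Finset.sum_le_sum (g := fun _ => y / A) fun a ha => ?_).trans
      (Finset.sum_le_sum_of_subset_of_nonneg (Finset.filter_subset _ _)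
        fun a _ _ => div_nonneg hy hA.le)).trans (le_of_eq ?_)
    · exact not_lt.1 (Finset.mem_filter.1 ha).2
    · rw [Finset.sum_const, nsmul_eq_mul, mul_comm]
  · refine (Finset.sum_le_sum_of_subset_of_nonneg (Finset.filter_subset_filter _ Finset.sdiff_subset)
      fun a _ _ => Nat.cast_nonneg _).trans (high_deg T G hA hy)

/-- The rate at which the disagreement grows. -/
lemma dis_rate (hT : Linear3 T) (G H : Finset V) {A : ℝ} (hA : 0 < A) {y : ℝ} (hy : 0 ≤ y) :
    ∑ F : T, (((dis (hstep T F G) (hstep T F H)).card : ℝ) - ((dis G H).card : ℝ)) ≤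
      y / A * ((dis G H).card : ℝ) + (y + 1) * Real.exp (-y) / A * (mom T G A + mom T H A) := by
  have hpt : ∀ F : T, ((dis (hstep T F G) (hstep T F H)).card : ℝ) - ((dis G H).card : ℝ) ≤
      (if (F : Finset V) ⊆ G ∧ ¬(F : Finset V) ⊆ H then (1 : ℝ) else 0) +
        (if (F : Finset V) ⊆ H ∧ ¬(F : Finset V) ⊆ G then (1 : ℝ) else 0) := by
    intro F
    have hc := hT.1 _ F.2
    rw [sub_le_iff_le_add']
    by_cases hG : (F : Finset V) ⊆ G <;> by_cases hH : (F : Finset V) ⊆ H <;>
      simp only [hstep, hG, hH, if_true, if_false, and_self, and_false, false_and, not_true,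
        not_false_iff, add_zero, zero_add, and_true, true_and]
    · refine Nat.cast_le.2 (Finset.card_le_card fun a ha => ?_)
      simp only [dis, Finset.mem_union, Finset.mem_sdiff] at ha ⊢
      tauto
    · exact_mod_cast dis_one_side hc hG hH
    · rw [dis_comm G (H \ _), dis_comm G H]
      exact_mod_cast dis_one_side hc hH hG
    · exact le_rfl
  refine (Finset.sum_le_sum fun F _ => hpt F).trans ?_
  rw [Finset.sum_add_distrib, Finset.sum_coe_sort T (fun F => if F ⊆ G ∧ ¬F ⊆ H then (1 : ℝ) else 0),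
    Finset.sum_coe_sort T (fun F => if F ⊆ H ∧ ¬F ⊆ G then (1 : ℝ) else 0), Finset.sum_boole,
    Finset.sum_boole]
  refine (add_le_add (one_side_rate T G H hA hy) (one_side_rate T H G hA hy)).trans (le_of_eq ?_)
  rw [dis, Finset.card_union_of_disjoint disjoint_sdiff_sdiff, Nat.cast_add]
  ring

/-! ### Depth within a stage -/

/-- Two to the depths of the points present at the start of the stage. -/
noncomputable def depthPot {K : ℕ} (x : TState V K) : ℝ := ∑ a ∈ x.1, (2 : ℝ) ^ (x.2.2 a : ℕ)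

/-- A stage keeps the points present at its start, and the present points among them. -/
lemma tstep_fst {K : ℕ} (F : T) (x : TState V K) : (tstep T K F x).1 = x.1 := by
  unfold tstep; split_ifs <;> rfl

lemma tstep_inv {K : ℕ} (F : T) (x : TState V K) (h : x.2.1 ⊆ x.1) :
    (tstep T K F x).2.1 ⊆ (tstep T K F x).1 ∧ (tstep T K F x).2.1 = hstep T F x.2.1 := by
  unfold tstep hstep
  by_cases hA : (F : Finset V) ⊆ x.1
  · simp only [hA, if_true]
    refine ⟨?_, trivial⟩
    split_ifs
    · exact Finset.sdiff_subset.trans h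
    · exact h
  · have hH : ¬(F : Finset V) ⊆ x.2.1 := fun hc => hA (hc.trans h)
    simp [hA, hH, h]

lemma depth_step (hT : Linear3 T) {K : ℕ} (F : T) (x : TState V K) :
    depthPot (tstep T K F x) - depthPot x ≤
      if (F : Finset V) ⊆ x.1 then 6 * ∑ b ∈ (F : Finset V), (2 : ℝ) ^ (x.2.2 b : ℕ) else 0 := by
  by_cases hA : (F : Finset V) ⊆ x.1
  · rw [if_pos hA, tstep, if_pos hA, depthPot, depthPot, ← Finset.sum_sub_distrib,
      ← Finset.sum_sdiff hA]
    have hz : ∑ a ∈ x.1 \ (F : Finset V), ((2 : ℝ) ^ (((fun a => if a ∈ (F : Finset V) then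
        (⟨min K ((F : Finset V).sup (fun b => (x.2.2 b : ℕ)) + 1),
          Nat.lt_succ_of_le (min_le_left _ _)⟩ : Fin (K + 1))
        else x.2.2 a) a : Fin (K + 1)) : ℕ) - (2 : ℝ) ^ (x.2.2 a : ℕ)) = 0 :=
      Finset.sum_eq_zero fun a ha => by simp [(Finset.mem_sdiff.1 ha).2]
    rw [hz, zero_add]
    have hne : (F : Finset V).Nonempty := Finset.card_pos.1 (by rw [hT.1 _ F.2]; norm_num)
    obtain ⟨b, hb, hmax⟩ := Finset.exists_mem_eq_sup _ hne (fun b => (x.2.2 b : ℕ))
    refine (Finset.sum_le_sum (g := fun _ => (2 : ℝ) ^ ((x.2.2 b : ℕ) + 1)) fun a ha => ?_).trans ?_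
    · simp only [ha, if_true]
      refine (sub_le_self _ (by positivity)).trans ?_
      exact pow_le_pow_right₀ (by norm_num) ((min_le_right _ _).trans (by rw [hmax]))
    · rw [Finset.sum_const, hT.1 _ F.2, pow_succ]
      have := Finset.single_le_sum (f := fun b => (2 : ℝ) ^ (x.2.2 b : ℕ))
        (fun c _ => by positivity) hb
      simp only [nsmul_eq_mul] at this ⊢
      push_cast
      linarith
  · rw [if_neg hA, tstep, if_neg hA, sub_self]

/-- The depth potential grows at most geometrically below a degree threshold. -/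
lemma depth_drift (hT : Linear3 T) {K : ℕ} (x : TState V K) {A : ℝ} (hA : 0 < A) {y : ℝ} (hy : 0 ≤ y) :
    ∑ F : T, (depthPot (tstep T K F x) - depthPot x) ≤
      6 * (y / A * depthPot x + (2 : ℝ) ^ K * ((y + 1) * Real.exp (-y) / A * mom T x.1 A)) := by
  refine (Finset.sum_le_sum fun F _ => depth_step hT F x).trans ?_
  rw [sum_ite_coe T x.1 (fun F => 6 * ∑ b ∈ F, (2 : ℝ) ^ (x.2.2 b : ℕ)), ← Finset.mul_sum, sum_points]
  refine mul_le_mul_of_nonneg_left ?_ (by norm_num)
  rw [← Finset.sum_filter_add_sum_filter_not x.1 (fun a => y / A < (pdeg T x.1 a : ℝ)), add_comm]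
  refine add_le_add ?_ ?_
  · rw [depthPot, Finset.mul_sum]
    exact (Finset.sum_le_sum fun a ha => mul_le_mul_of_nonneg_right
      (not_lt.1 (Finset.mem_filter.1 ha).2) (by positivity)).trans
      (Finset.sum_le_sum_of_subset_of_nonneg (Finset.filter_subset _ _)
        fun a _ _ => mul_nonneg (div_nonneg hy hA.le) (by positivity))
  · refine le_trans ?_ (mul_le_mul_of_nonneg_left (high_deg T x.1 hA hy) (by positivity))
    rw [Finset.mul_sum]
    refine Finset.sum_le_sum fun a _ => ?_
    rw [mul_comm]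
    exact mul_le_mul_of_nonneg_right
      (pow_le_pow_right₀ (by norm_num) (Nat.le_of_lt_succ (x.2.2 a).isLt)) (Nat.cast_nonneg _)

/-- The expected number of histories of full depth. -/
lemma stage_bad (hT : Linear3 T) {K : ℕ} {Δ A q : ℝ} (hA : 0 < A) (hΔ0 : 0 ≤ Δ) (hΔ : Δ ≤ A / 50)
    (hq : 0 ≤ q) (hK : 4 * q ≤ K) (H : Finset V) :
    semi (tstep T K) Δ (fun x => ((x.1.filter (fun a => ¬(x.2.2 a : ℕ) < K)).card : ℝ))
      (H, H, fun _ => 0) ≤ (q + 2) * Real.exp (-q) * mom T H A := by
  set c : ℝ := 6 * (2 * q / A) with hc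
  set Q : ℝ := (2 * q + 1) * Real.exp (-(2 * q)) / A with hQ
  have hQ0 : 0 ≤ Q := by positivity
  set e : ℝ := (6 * (2 : ℝ) ^ K * Q) with he
  have he0 : 0 ≤ e := by positivity
  set G : ℝ → TState V K → ℝ :=
    fun u x => Real.exp (c * (Δ - u)) * (depthPot x + e * mom T x.1 A * (Δ - u)) with hG
  have h := semi_le_of_drift (tstep T K) hΔ0 G
    (fun u x => Real.exp (c * (Δ - u)) * (-c) * (depthPot x + e * mom T x.1 A * (Δ - u)) +
      Real.exp (c * (Δ - u)) * (-(e * mom T x.1 A))) ?_ ?_ (H, H, fun _ => 0)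
  rotate_left
  · intro u _ x
    refine HasDerivAt.hasDerivWithinAt ?_
    have h1 := (((hasDerivAt_id u).const_sub Δ).const_mul c).exp
    have h2 := (((hasDerivAt_id u).const_sub Δ).const_mul (e * mom T x.1 A)).const_add (depthPot x)
    refine (h1.fun_mul h2).congr_deriv ?_
    simp
  · intro u hu x
    have h1 := depth_drift hT x hA (y := 2 * q) (by positivity)
    have hgen : gen (tstep T K) (G u) x =
        Real.exp (c * (Δ - u)) * ∑ F : T, (depthPot (tstep T K F x) - depthPot x) := by
      rw [gen_apply, Finset.mul_sum]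
      refine Finset.sum_congr rfl fun F _ => ?_
      simp only [hG, tstep_fst]; ring
    rw [hgen]
    have hM : 0 ≤ c * (e * mom T x.1 A * (Δ - u)) := by
      have := mom_nonneg T x.1 A
      have := sub_nonneg.2 hu.2
      positivity
    have h2 := mul_le_mul_of_nonneg_left h1 (Real.exp_pos (c * (Δ - u))).le
    have h3 := mul_nonneg (Real.exp_pos (c * (Δ - u))).le hM
    simp only [hc, he, hQ] at h2 h3 ⊢
    linarith
  rw [sub_zero] at h
  have hend : ∀ x : TState V K,
      ((x.1.filter (fun a => ¬(x.2.2 a : ℕ) < K)).card : ℝ) * (2 : ℝ) ^ K ≤ G Δ x := by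
    intro x
    simp only [hG, sub_self, mul_zero, Real.exp_zero, add_zero, one_mul, depthPot]
    refine le_trans ?_ (Finset.sum_le_sum_of_subset_of_nonneg (Finset.filter_subset
      (fun a => ¬(x.2.2 a : ℕ) < K) x.1) fun a _ _ => by positivity)
    rw [← nsmul_eq_mul, ← Finset.sum_const]
    exact Finset.sum_le_sum fun a ha =>
      pow_le_pow_right₀ (by norm_num) (not_lt.1 (Finset.mem_filter.1 ha).2)
  have hb := semi_mono (tstep T K) hΔ0
    (f := (2 : ℝ) ^ K • fun x : TState V K => ((x.1.filter (fun a => ¬(x.2.2 a : ℕ) < K)).card : ℝ))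
    (g := G Δ) (fun x => by rw [Pi.smul_apply, smul_eq_mul, mul_comm]; exact hend x) (H, H, fun _ => 0)
  rw [map_smul, Pi.smul_apply, smul_eq_mul] at hb
  have hh := hb.trans h
  simp only [hG, depthPot, Fin.val_zero, pow_zero, Finset.sum_const, nsmul_eq_mul, mul_one, sub_zero] at hh
  have hN := card_le_mom T H hA.le
  have hM0 := mom_nonneg T H A
  have hcΔ : c * Δ ≤ 6 / 25 * q := by
    refine (mul_le_mul_of_nonneg_left hΔ (by positivity)).trans (le_of_eq ?_)
    rw [hc]; field_simp; ring
  have heΔ : e * mom T H A * Δ ≤ (2 : ℝ) ^ K * ((q + 1) * Real.exp (-(2 * q))) * mom T H A := by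
    refine (mul_le_mul_of_nonneg_left hΔ (by positivity)).trans ?_
    rw [he, hQ]
    have : 6 / 50 * (2 * q + 1) ≤ q + 1 := by linarith
    calc 6 * (2 : ℝ) ^ K * ((2 * q + 1) * Real.exp (-(2 * q)) / A) * mom T H A * (A / 50)
        = (2 : ℝ) ^ K * ((6 / 50 * (2 * q + 1)) * Real.exp (-(2 * q))) * mom T H A := by
          field_simp
      _ ≤ _ := by gcongr
  have hbound : Real.exp (c * Δ) * ((H.card : ℝ) + e * mom T H A * Δ) ≤
      (2 : ℝ) ^ K * ((q + 2) * Real.exp (-q) * mom T H A) := by
    have h2K : Real.exp (6 / 25 * q + q) ≤ (2 : ℝ) ^ K := by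
      rw [← Real.exp_log (show (0 : ℝ) < 2 ^ K by positivity), Real.log_pow, Real.exp_le_exp]
      nlinarith [Real.log_two_gt_d9]
    have e1 : Real.exp (6 / 25 * q) * mom T H A ≤ (2 : ℝ) ^ K * (Real.exp (-q) * mom T H A) := by
      rw [← mul_assoc]
      refine mul_le_mul_of_nonneg_right ?_ hM0
      refine le_trans (le_of_eq ?_) (mul_le_mul_of_nonneg_right h2K (Real.exp_pos _).le)
      rw [← Real.exp_add]; ring_nf
    have e2 : Real.exp (6 / 25 * q) * Real.exp (-(2 * q)) ≤ Real.exp (-q) := by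
      rw [← Real.exp_add]; exact Real.exp_le_exp.2 (by linarith)
    calc Real.exp (c * Δ) * ((H.card : ℝ) + e * mom T H A * Δ)
        ≤ Real.exp (6 / 25 * q) *
            (mom T H A + (2 : ℝ) ^ K * ((q + 1) * Real.exp (-(2 * q))) * mom T H A) := by gcongr
      _ = Real.exp (6 / 25 * q) * mom T H A + (2 : ℝ) ^ K * (q + 1) *
            (Real.exp (6 / 25 * q) * Real.exp (-(2 * q))) * mom T H A := by ring
      _ ≤ (2 : ℝ) ^ K * (Real.exp (-q) * mom T H A) +
            (2 : ℝ) ^ K * (q + 1) * Real.exp (-q) * mom T H A := by gcongr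
      _ = _ := by ring
  exact le_of_mul_le_mul_left (hh.trans hbound) (by positivity)

end Vale.Agent.P046.Full.Growth
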